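import Vale.Agent.Lib.P310.Full.Core.ProgWf

/-!
# The size of the graphs of a program
-/

namespace Vale.Agent.Lib.P310.FC

variable {F V : Type} {ρ ℓ M : ℕ} [Field F] [AddCommGroup V] [Module F V] [Fintype V]
  [DecidableEq V] {α : Fin ρ → F}

lemma numPieces_eq (S : Sys ρ V) :
    numPieces S = S.nG * (ρ * Fintype.card V) * (2 * ρ * S.m) + S.nG * (ρ * Fintype.card V) +
      S.nF * (ρ * Fintype.card V) := by
  classical
  unfold numPieces
  rw [Fintype.card_congr (pieceEquiv S).symm]
  simp only [Fintype.card_sum, Fintype.card_prod, Fintype.card_fin]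
  ring

lemma card_vtx_eq (S : Sys ρ V) :
    Fintype.card (Vtx S) =
      4 * numPieces S * (2 * numPieces S * (4 * numPieces S + 1) + 1) := by
  classical
  have h1 : Fintype.card (Piece S) = numPieces S := rfl
  simp only [Vtx, Elem, Fintype.card_prod, Fintype.card_option, Fintype.card_fin, h1,
    ZMod.card]
  ring

end Vale.Agent.Lib.P310.FC
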